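import Vale.Agent.P046.Trees.Unique

/-!
The expected number of edges whose balls are not hypertrees: pairs of walks in the complete
graph, weighted by the probability of a dense union.
-/

namespace Vale.Agent.P046.Trees

open Finset
open scoped Classical

variable {n : ℕ}

lemma sum_biUnion_le' {α β : Type*} [DecidableEq β] (s : Finset α) (F : α → Finset β) {f : β → ℝ}
    (hf : ∀ b, 0 ≤ f b) : ∑ b ∈ s.biUnion F, f b ≤ ∑ a ∈ s, ∑ b ∈ F a, f b := by
  induction s using Finset.induction_on with
  | empty => simp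
  | insert a s ha ih =>
    rw [biUnion_insert, sum_insert ha]
    linarith [sum_union_inter (f := f) (s₁ := F a) (s₂ := s.biUnion F),
      sum_nonneg fun b (_ : b ∈ F a ∩ s.biUnion F) => hf b]

lemma EvUntil_finsum {ι : Type*} (s : Finset ι) (stop : Finset (Sym2 (Fin n)) → Prop)
    (ψ : ι → Finset (Sym2 (Fin n)) → ℝ) (G : Finset (Sym2 (Fin n))) :
    EvUntil stop (fun H => ∑ i ∈ s, ψ i H) G = ∑ i ∈ s, EvUntil stop (ψ i) G := by
  induction s using Finset.induction_on with
  | empty => simpa using EvUntil_const stop 0 G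
  | insert a s ha ih => simp only [sum_insert ha, EvUntil_add, ih]

/-- All walks of length at most `k` in the complete graph. -/
noncomputable def paths (n : ℕ) (e : Sym2 (Fin n)) :
    ℕ → Finset (List (Finset (Fin n)) × Sym2 (Fin n))
  | 0 => {([], e)}
  | k + 1 => insert ([], e) ((paths n e k).biUnion fun q =>
      (through (completeEdges n) q.2).biUnion fun t => (edgesOf t).image fun g => (t :: q.1, g))

lemma Reach.mem_paths {G : Finset (Sym2 (Fin n))} (hG : G ⊆ completeEdges n) {e g : Sym2 (Fin n)}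
    {l : List (Finset (Fin n))} (h : Reach G e l g) : ∀ k, l.length ≤ k → (l, g) ∈ paths n e k := by
  induction h with
  | root => intro k _; cases k <;> simp [paths]
  | @step l g t g' _ ht hg ih =>
    intro k hk
    obtain ⟨k, rfl⟩ : ∃ j, k = j + 1 := ⟨k - 1, by simp at hk; omega⟩
    obtain ⟨h1, h2, _⟩ := mem_kids.1 ht
    refine mem_insert_of_mem (mem_biUnion.2 ⟨(l, g), ih k (by simpa using hk),
      mem_biUnion.2 ⟨t, mem_through.2 ⟨mem_filter.2 ⟨(mem_filter.1 h1).1,
        (edgesOf_subset h1).trans hG⟩, h2⟩, mem_image.2 ⟨g', (mem_erase.1 hg).2, rfl⟩⟩⟩)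

lemma paths_spec {e : Sym2 (Fin n)} {A : Finset (Sym2 (Fin n))} (he : e ∈ A) :
    ∀ k, ∀ q ∈ paths n e k, q.2 ∈ uni A q.1 ∧ (uni A q.1).card ≤ A.card + 2 * k ∧
      (vts (uni A q.1)).card ≤ (vts A).card + k
  | 0, q, hq => by
    rw [paths, mem_singleton] at hq
    subst hq
    simp [uni, he]
  | k + 1, q, hq => by
    rw [paths, mem_insert, mem_biUnion] at hq
    rcases hq with rfl | ⟨q0, hq0, hq⟩
    · simp [uni, he]
    · obtain ⟨t, ht, hq⟩ := mem_biUnion.1 hq
      obtain ⟨g, hg, rfl⟩ := mem_image.1 hq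
      obtain ⟨h1, h2, h3⟩ := paths_spec he k q0 hq0
      obtain ⟨ht1, ht2⟩ := mem_through.1 ht
      have e1 : (uni A (t :: q0.1)).card ≤ (uni A q0.1).card + 2 := card_union_tri ht1 ht2 h1
      have e2 : (vts (uni A (t :: q0.1))).card ≤ (vts (uni A q0.1)).card + 1 :=
        card_vts_union_tri ht1 ht2 h1
      exact ⟨mem_union_right _ hg, by simp only; omega, by simp only; omega⟩

/-- The weight of an edge set: one factor `1 / n` per vertex. -/
noncomputable def theta (B : Finset (Sym2 (Fin n))) : ℝ := ((n : ℝ)⁻¹) ^ (vts B).card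

lemma theta_nonneg (B : Finset (Sym2 (Fin n))) : 0 ≤ theta B := by unfold theta; positivity

lemma vts_mono {A B : Finset (Sym2 (Fin n))} (h : A ⊆ B) : vts A ⊆ vts B := fun x hx => by
  obtain ⟨f, hf, hxf⟩ := mem_vts.1 hx
  exact mem_vts.2 ⟨f, h hf, hxf⟩

lemma card_through_within (g : Sym2 (Fin n)) (W : Finset (Fin n)) :
    ((through (completeEdges n) g).filter fun t => t ⊆ W).card ≤ W.card := by
  induction g using Sym2.ind with
  | _ u v =>
    refine le_trans (card_le_card (t := W.image fun x => ({u, v, x} : Finset (Fin n))) ?_)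
      card_image_le
    intro t ht
    obtain ⟨ht', hW⟩ := mem_filter.1 ht
    obtain ⟨h1, h2⟩ := mem_through.1 ht'
    obtain ⟨x, hxt, _, hall, _⟩ := exists_third h1 h2
    obtain ⟨⟨hu, hv⟩, _⟩ := mem_edgesOf'.1 h2
    refine mem_image.2 ⟨x, hW hxt, (subset_antisymm ?_ ?_)⟩
    · intro y hy
      simp only [mem_insert, mem_singleton] at hy
      rcases hy with rfl | rfl | rfl
      exacts [hu, hv, hxt]
    · intro y hy
      have := hall y hy
      simp only [Sym2.mem_iff] at this
      simp only [mem_insert, mem_singleton]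
      tauto

/-- One more triangle in the complete graph costs a factor linear in the vertices used. -/
lemma sum_theta_step {B : Finset (Sym2 (Fin n))} (g : Sym2 (Fin n)) {V : ℕ}
    (hV : (vts B).card ≤ V) :
    ∑ t ∈ through (completeEdges n) g, theta (B ∪ edgesOf t) ≤ (1 + (V : ℝ)) * theta B := by
  rcases Nat.eq_zero_or_pos n with rfl | hn
  · have : through (completeEdges 0) g = ∅ := eq_empty_of_forall_notMem fun t ht => by
      have := card_of_mem_triangles (mem_through.1 ht).1
      have := card_le_univ t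
      rw [Fintype.card_fin] at this
      omega
    rw [this, sum_empty]
    exact mul_nonneg (by positivity) (theta_nonneg B)
  have hn' : (0 : ℝ) < n := by exact_mod_cast hn
  have hi : (n : ℝ)⁻¹ ≤ 1 := inv_le_one_of_one_le₀ (by exact_mod_cast hn)
  have hle : ∀ t, theta (B ∪ edgesOf t) ≤ theta B := fun t =>
    pow_le_pow_of_le_one (by positivity) hi (card_le_card (vts_mono subset_union_left))
  have hlt : ∀ t ∈ through (completeEdges n) g, ¬ t ⊆ vts B →
      theta (B ∪ edgesOf t) ≤ theta B * (n : ℝ)⁻¹ := by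
    intro t ht hsub
    rw [theta, theta, ← pow_succ]
    refine pow_le_pow_of_le_one (by positivity) hi (card_lt_card ?_)
    rw [Finset.ssubset_iff_subset_ne]
    refine ⟨vts_mono subset_union_left, fun h => hsub fun y hy => ?_⟩
    rw [h]
    have hc : (t.erase y).Nonempty := by
      rw [← card_pos, card_erase_of_mem hy, card_of_mem_triangles (mem_through.1 ht).1]
      norm_num
    obtain ⟨z, hz⟩ := hc
    exact mem_vts.2 ⟨s(y, z), mem_union_right _
      (mem_edgesOf'.2 ⟨⟨hy, (mem_erase.1 hz).2⟩, (mem_erase.1 hz).1.symm⟩), Sym2.mem_mk_left y z⟩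
  have hall : ((through (completeEdges n) g).card : ℝ) ≤ n := by
    have h := card_through_within g (univ : Finset (Fin n))
    rw [filter_true_of_mem fun t _ => subset_univ t, card_univ, Fintype.card_fin] at h
    exact_mod_cast h
  rw [← sum_filter_add_sum_filter_not _ (fun t => t ⊆ vts B)]
  have h1 : ∑ t ∈ (through (completeEdges n) g).filter (fun t => t ⊆ vts B),
      theta (B ∪ edgesOf t) ≤ (V : ℝ) * theta B := by
    refine (sum_le_card_nsmul _ _ (theta B) fun t _ => hle t).trans ?_
    rw [nsmul_eq_mul]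
    exact mul_le_mul_of_nonneg_right
      (by exact_mod_cast (card_through_within g (vts B)).trans hV) (theta_nonneg B)
  have h2 : ∑ t ∈ (through (completeEdges n) g).filter (fun t => ¬ t ⊆ vts B),
      theta (B ∪ edgesOf t) ≤ theta B := by
    refine (sum_le_card_nsmul _ _ (theta B * (n : ℝ)⁻¹)
      fun t ht => hlt t (mem_filter.1 ht).1 (mem_filter.1 ht).2).trans ?_
    rw [nsmul_eq_mul]
    calc _ ≤ (n : ℝ) * (theta B * (n : ℝ)⁻¹) :=
          mul_le_mul_of_nonneg_right ((Nat.cast_le.2 (card_filter_le _ _)).trans hall)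
            (mul_nonneg (theta_nonneg B) (by positivity))
      _ = theta B := by field_simp
  linarith

lemma sum_theta_paths {e : Sym2 (Fin n)} {A : Finset (Sym2 (Fin n))} (he : e ∈ A) {R : ℕ}
    (hA : (vts A).card + R ≤ 2 * R + 2) : ∀ k, k ≤ R →
    ∑ q ∈ paths n e k, theta (uni A q.1) ≤ (10 * ((R : ℝ) + 1)) ^ k * theta A
  | 0, _ => by simp [paths, uni]
  | k + 1, hk => by
    have ih := sum_theta_paths he hA k (by omega)
    have hX : (1 : ℝ) ≤ 10 * ((R : ℝ) + 1) := by
      have := Nat.cast_nonneg (α := ℝ) R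
      linarith
    have hs : ∀ b : List (Finset (Fin n)) × Sym2 (Fin n), 0 ≤ theta (uni A b.1) :=
      fun b => theta_nonneg _
    rw [paths]
    refine le_trans (b := theta A + ∑ q ∈ paths n e k,
      3 * ((1 + ((2 * R + 2 : ℕ) : ℝ)) * theta (uni A q.1))) ?_ ?_
    · refine le_trans (b := theta (uni A []) + ∑ b ∈ (paths n e k).biUnion (fun q =>
        (through (completeEdges n) q.2).biUnion fun t =>
          (edgesOf t).image fun g => (t :: q.1, g)), theta (uni A b.1)) ?_ ?_
      · by_cases h : (([], e) : List (Finset (Fin n)) × Sym2 (Fin n)) ∈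
          (paths n e k).biUnion fun q => (through (completeEdges n) q.2).biUnion fun t =>
            (edgesOf t).image fun g => (t :: q.1, g)
        · rw [insert_eq_of_mem h]
          exact le_add_of_nonneg_left (theta_nonneg _)
        · rw [sum_insert h]
      refine add_le_add le_rfl ((sum_biUnion_le' _ _ hs).trans (sum_le_sum fun q hq => ?_))
      refine (sum_biUnion_le' _ _ hs).trans ?_
      obtain ⟨hq1, _, hq3⟩ := paths_spec he k q hq
      refine le_trans (sum_le_sum fun t ht => ?_) ((mul_sum _ _ (3 : ℝ)).symm.trans_le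
        (mul_le_mul_of_nonneg_left (sum_theta_step q.2 (B := uni A q.1) (by omega)) (by norm_num)))
      refine (sum_le_card_nsmul _ _ (theta (uni A q.1 ∪ edgesOf t)) fun b hb => ?_).trans ?_
      · obtain ⟨g, _, rfl⟩ := mem_image.1 hb
        exact le_rfl
      · rw [nsmul_eq_mul]
        refine mul_le_mul_of_nonneg_right ?_ (theta_nonneg _)
        calc (((edgesOf t).image fun g => (t :: q.1, g)).card : ℝ) ≤ (edgesOf t).card :=
              Nat.cast_le.2 card_image_le
          _ = 3 := by rw [card_edgesOf (card_of_mem_triangles (mem_through.1 ht).1)]; norm_num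
    · rw [← mul_sum, ← mul_sum]
      push_cast
      have hp : theta A ≤ (10 * ((R : ℝ) + 1)) ^ k * theta A :=
        le_mul_of_one_le_left (theta_nonneg A) (one_le_pow₀ hX)
      have hnn : 0 ≤ (10 * ((R : ℝ) + 1)) ^ k * theta A := (theta_nonneg A).trans hp
      have := mul_le_mul_of_nonneg_left ih (show (0 : ℝ) ≤ 3 * (1 + (2 * (R : ℝ) + 2)) by positivity)
      rw [pow_succ]
      nlinarith [mul_nonneg (Nat.cast_nonneg R : (0 : ℝ) ≤ R) hnn]

/-- The presence bound of a dense set, in terms of its weight. -/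
lemma pow_dense_le {p : ℝ} (hp0 : 0 ≤ p) (hp1 : p ≤ 1) (hM : 1 ≤ (n : ℝ) * p ^ 2)
    {B : Finset (Sym2 (Fin n))} {R : ℕ} (hB : Dense B) (hV : (vts B).card ≤ 2 * R + 2)
    (h1 : 1 ≤ (vts B).card) :
    p ^ B.card ≤ (n : ℝ) * ((n : ℝ) * p ^ 2) ^ (2 * R + 1) * theta B := by
  obtain ⟨v, hv⟩ : ∃ v, (vts B).card = v + 1 := ⟨(vts B).card - 1, by omega⟩
  unfold Dense at hB
  have hn : (n : ℝ) ≠ 0 := by rintro h; rw [h, zero_mul] at hM; linarith
  calc p ^ B.card ≤ p ^ (2 * v) := pow_le_pow_of_le_one hp0 hp1 (by omega)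
    _ = (n : ℝ) * ((n : ℝ) * p ^ 2) ^ v * theta B := by
        rw [theta, hv, inv_pow, mul_pow, pow_mul]
        field_simp
        ring
    _ ≤ _ := by
        refine mul_le_mul_of_nonneg_right (mul_le_mul_of_nonneg_left ?_ (Nat.cast_nonneg n))
          (theta_nonneg B)
        exact pow_le_pow_right₀ hM (by omega)

/-- **Few balls fail to be hypertrees.** -/
theorem expected_notUnique {EM R : ℕ} {good : Finset (Sym2 (Fin n)) → Prop} {m : ℕ → ℝ} {a p : ℝ}
    (hw : Window EM good m a (4 * R + 1)) (hp : dens n EM ≤ p) (hp1 : p ≤ 1)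
    (hM : 1 ≤ (n : ℝ) * p ^ 2) :
    EvUntil (stageStop EM good)
      (fun G => if good G then ((G.filter fun e => ¬ Unique G e R).card : ℝ) else 0)
      (completeEdges n) ≤
      2 * n * (10 * ((R : ℝ) + 1)) ^ (2 * R) * ((n : ℝ) * p ^ 2) ^ (2 * R + 1) := by
  set Kn := completeEdges n
  let U : Sym2 (Fin n) → List (Finset (Fin n)) × Sym2 (Fin n) →
      List (Finset (Fin n)) × Sym2 (Fin n) → Finset (Sym2 (Fin n)) :=
    fun e q q' => uni (uni {e} q.1) q'.1
  refine le_trans (EvUntil_mono (χ := fun G => ∑ e ∈ Kn, ∑ q ∈ paths n e R, ∑ q' ∈ paths n e R,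
    (if Dense (U e q q') then (1 : ℝ) else 0) *
      (if good G ∧ U e q q' ⊆ G then (1 : ℝ) else 0)) fun G hG _ => ?_) ?_
  · by_cases hg : good G
    · rw [if_pos hg, ← sum_boole]
      refine le_trans (sum_le_sum fun e he => ?_) (sum_le_sum_of_subset_of_nonneg hG
        fun e _ _ => sum_nonneg fun q _ => sum_nonneg fun q' _ => ?_)
      · by_cases hU : Unique G e R
        · rw [if_neg (not_not.2 hU)]
          exact sum_nonneg fun q _ => sum_nonneg fun q' _ => by split_ifs <;> norm_num
        rw [if_pos hU]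
        obtain ⟨l, l', g, g', hl, hl', hr, hr', hsub, hd⟩ := dense_of_not_unique hG he hU
        refine le_trans ?_ (single_le_sum (f := fun q => ∑ q' ∈ paths n e R,
          (if Dense (U e q q') then (1 : ℝ) else 0) *
            (if good G ∧ U e q q' ⊆ G then (1 : ℝ) else 0))
          (fun q _ => sum_nonneg fun q' _ => by split_ifs <;> norm_num)
          (hr.mem_paths hG R hl))
        refine le_trans ?_ (single_le_sum (fun q' _ => by split_ifs <;> norm_num)
          (hr'.mem_paths hG R hl'))
        simp [U, hd, hg, hsub]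
      · split_ifs <;> norm_num
    · rw [if_neg hg]
      exact sum_nonneg fun e _ => sum_nonneg fun q _ => sum_nonneg fun q' _ => by
        split_ifs <;> norm_num
  simp only [EvUntil_finsum, EvUntil_const_mul]
  set K : ℝ := 2 * ((n : ℝ) * ((n : ℝ) * p ^ 2) ^ (2 * R + 1)) with hK
  have hK0 : 0 ≤ K := by positivity
  have hd0 : 0 ≤ dens n EM := by unfold dens; positivity
  set X : ℝ := 10 * ((R : ℝ) + 1) with hX
  have hX0 : 0 ≤ X := by positivity
  have hroot : ∀ e ∈ Kn, ∑ q ∈ paths n e R, ∑ q' ∈ paths n e R,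
      (if Dense (U e q q') then (1 : ℝ) else 0) * EvUntil (stageStop EM good)
        (fun G => if good G ∧ U e q q' ⊆ G then (1 : ℝ) else 0) Kn ≤
      K * (X ^ (2 * R) * ((n : ℝ)⁻¹) ^ 2) := by
    intro e he
    have hnd : ¬ e.IsDiag := (mem_filter.1 he).2
    have hv2 : (vts ({e} : Finset (Sym2 (Fin n)))).card = 2 := by
      have := (grown_singleton hnd).count
      rw [card_singleton] at this
      omega
    have h1 : ∀ q ∈ paths n e R, e ∈ uni {e} q.1 ∧ (uni {e} q.1).card ≤ 1 + 2 * R ∧
        (vts (uni {e} q.1)).card ≤ 2 + R := fun q hq => by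
      obtain ⟨_, a2, a3⟩ := paths_spec (mem_singleton_self e) R q hq
      rw [card_singleton] at a2
      rw [hv2] at a3
      exact ⟨subset_uni _ _ (mem_singleton_self e), a2, a3⟩
    calc _ ≤ ∑ q ∈ paths n e R, ∑ q' ∈ paths n e R, K * theta (U e q q') := by
          refine sum_le_sum fun q hq => sum_le_sum fun q' hq' => ?_
          split_ifs with hd
          swap
          · rw [zero_mul]; exact mul_nonneg hK0 (theta_nonneg _)
          obtain ⟨a1, a2, a3⟩ := h1 q hq
          obtain ⟨_, b2, b3⟩ := paths_spec a1 R q' hq'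
          have c2 : (U e q q').card ≤ 4 * R + 1 := by simp only [U]; omega
          have c3 : (vts (U e q q')).card ≤ 2 * R + 2 := by simp only [U]; omega
          have c1 : 1 ≤ (vts (U e q q')).card := by
            refine le_trans (le_of_le_of_eq one_le_two hv2.symm) (card_le_card (vts_mono ?_))
            exact singleton_subset_iff.2 (subset_uni _ _ a1)
          rw [one_mul, hK, mul_assoc]
          refine (pr_subset_le hw _ c2).trans (mul_le_mul_of_nonneg_left ?_ zero_le_two)
          exact (pow_le_pow_left₀ hd0 hp _).trans (pow_dense_le (hd0.trans hp) hp1 hM hd c3 c1)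
      _ ≤ ∑ q ∈ paths n e R, K * (X ^ R * theta (uni {e} q.1)) := by
          refine sum_le_sum fun q hq => ?_
          rw [← mul_sum]
          obtain ⟨a1, _, a3⟩ := h1 q hq
          exact mul_le_mul_of_nonneg_left (sum_theta_paths a1 (by omega) R le_rfl) hK0
      _ ≤ K * (X ^ R * (X ^ R * theta ({e} : Finset (Sym2 (Fin n))))) := by
          rw [← mul_sum, ← mul_sum]
          exact mul_le_mul_of_nonneg_left (mul_le_mul_of_nonneg_left
            (sum_theta_paths (mem_singleton_self e) (by omega) R le_rfl) (pow_nonneg hX0 R)) hK0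
      _ = _ := by rw [theta, hv2]; ring
  refine (sum_le_card_nsmul _ _ _ hroot).trans ?_
  rw [nsmul_eq_mul]
  calc (Kn.card : ℝ) * (K * (X ^ (2 * R) * ((n : ℝ)⁻¹) ^ 2))
      ≤ (n : ℝ) ^ 2 * (K * (X ^ (2 * R) * ((n : ℝ)⁻¹) ^ 2)) := by
        refine mul_le_mul_of_nonneg_right ?_ (by positivity)
        rw [show Kn.card = n.choose 2 from card_completeEdges n]
        exact_mod_cast Nat.choose_le_pow n 2
    _ = _ := by
        have hn : (n : ℝ) ≠ 0 := by rintro h; rw [h, zero_mul] at hM; linarith
        rw [hK]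
        field_simp

end Vale.Agent.P046.Trees
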