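import Vale.Agent.P046.Prob
import Vale.Agent.P046.Track.Comb

/-!
While all codegrees are close to a common value, a small set of edges is present with probability
at most twice the product of the edge density.
-/

namespace Vale.Agent.P046.Trees

open Finset
open scoped Classical

variable {n : ℕ}

/-- The triangles of `G` through `g`. -/
noncomputable def through (G : Finset (Sym2 (Fin n))) (g : Sym2 (Fin n)) : Finset (Finset (Fin n)) :=
  (triangles G).filter fun t => g ∈ edgesOf t

lemma mem_through {G : Finset (Sym2 (Fin n))} {g : Sym2 (Fin n)} {t : Finset (Fin n)} :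
    t ∈ through G g ↔ t ∈ triangles G ∧ g ∈ edgesOf t := mem_filter

lemma tri_eq {G H : Finset (Sym2 (Fin n))} {t u : Finset (Fin n)} (ht : t ∈ triangles G)
    (hu : u ∈ triangles H) {e f : Sym2 (Fin n)} (hef : e ≠ f) (h1 : e ∈ edgesOf t)
    (h2 : f ∈ edgesOf t) (h3 : e ∈ edgesOf u) (h4 : f ∈ edgesOf u) : t = u :=
  Track.eq_of_two_edges (card_of_mem_triangles ht) (card_of_mem_triangles hu) hef h1 h2 h3 h4

lemma sum_through (G : Finset (Sym2 (Fin n))) (S : Finset (Sym2 (Fin n))) :
    ∑ f ∈ S, (through G f).card = ∑ t ∈ triangles G, (S.filter fun f => f ∈ edgesOf t).card := by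
  simp only [through, card_filter]
  exact sum_comm

lemma sum_through_self (G : Finset (Sym2 (Fin n))) :
    ∑ f ∈ G, (through G f).card = 3 * (triangles G).card := by
  rw [sum_through, sum_congr rfl fun t ht => ?_, sum_const, smul_eq_mul, mul_comm]
  rw [filter_mem_eq_inter, inter_eq_right.2 (edgesOf_subset ht),
    card_edgesOf (card_of_mem_triangles ht)]

/-- Triangles meeting a set, by inclusion and exclusion of order two. -/
lemma sum_through_le (G S : Finset (Sym2 (Fin n))) :
    ∑ f ∈ S, (through G f).card ≤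
      ((triangles G).filter fun t => ¬ Disjoint S (edgesOf t)).card + S.card ^ 2 := by
  have h2 : ∑ t ∈ triangles G, (S.offDiag.filter fun q => q.1 ∈ edgesOf t ∧ q.2 ∈ edgesOf t).card
      ≤ S.card ^ 2 := by
    simp only [card_filter]
    rw [sum_comm]
    refine (sum_le_card_nsmul _ _ 1 fun q hq => ?_).trans ?_
    · rw [← card_filter]
      refine card_le_one.2 fun t ht u hu => ?_
      obtain ⟨ht1, ht2, ht3⟩ := mem_filter.1 ht
      obtain ⟨hu1, hu2, hu3⟩ := mem_filter.1 hu
      exact tri_eq ht1 hu1 (mem_offDiag.1 hq).2.2 ht2 ht3 hu2 hu3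
    · rw [smul_eq_mul, mul_one, offDiag_card, sq]
      omega
  rw [sum_through, card_filter]
  refine le_trans ?_ (Nat.add_le_add_left h2 _)
  rw [← sum_add_distrib]
  refine sum_le_sum fun t _ => ?_
  set I := S.filter fun f => f ∈ edgesOf t with hI
  have he : (S.offDiag.filter fun q => q.1 ∈ edgesOf t ∧ q.2 ∈ edgesOf t) = I.offDiag := by
    ext q
    simp only [mem_filter, mem_offDiag, hI]
    tauto
  rw [he, offDiag_card]
  by_cases hd : Disjoint S (edgesOf t)
  · have : I = ∅ := filter_eq_empty_iff.2 fun {f} hf hf' => disjoint_left.1 hd hf hf'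
    simp [this]
  · rw [if_pos hd]
    rcases Nat.lt_or_ge I.card 2 with h | h
    · omega
    · have := Nat.mul_le_mul_right I.card h
      omega

/-- The stop at the stage of `EM` edges, or when the codegrees leave their window. -/
def stageStop (EM : ℕ) (good : Finset (Sym2 (Fin n)) → Prop) (G : Finset (Sym2 (Fin n))) : Prop :=
  G.card ≤ EM ∨ ¬ good G

/-- The edge density at the stage. -/
noncomputable def dens (n EM : ℕ) : ℝ := (EM : ℝ) / n.choose 2

/-- The codegrees are within a relative `a / |G|` of `m |G|` above the stage, and `N` edges are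
few against the window. -/
structure Window (EM : ℕ) (good : Finset (Sym2 (Fin n)) → Prop) (m : ℕ → ℝ) (a : ℝ) (N : ℕ) :
    Prop where
  six : 6 ≤ EM
  le_n : EM ≤ n.choose 2
  a_nonneg : 0 ≤ a
  small : 12 * ((N : ℝ) + 1) * (a + 1) ≤ EM
  big : ∀ k, EM < k → (N : ℝ) ≤ m k * (a / k)
  pos : ∀ k, EM < k → 0 < m k
  cod : ∀ G, G ⊆ completeEdges n → EM < G.card → good G → ∀ f ∈ G,
    m G.card * (1 - a / G.card) ≤ (through G f).card ∧
      ((through G f).card : ℝ) ≤ m G.card * (1 + a / G.card)

variable {EM N : ℕ} {good : Finset (Sym2 (Fin n)) → Prop} {m : ℕ → ℝ} {a : ℝ}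

lemma Window.frac (hw : Window EM good m a N) {k : ℕ} (hk : EM < k) :
    0 ≤ a / k ∧ a / k ≤ 1 / 12 := by
  have hk0 : (0 : ℝ) < k := by exact_mod_cast lt_of_le_of_lt (Nat.zero_le _) hk
  have h2 : (EM : ℝ) ≤ k := by exact_mod_cast hk.le
  refine ⟨div_nonneg hw.a_nonneg hk0.le, ?_⟩
  rw [div_le_iff₀ hk0]
  have := hw.small
  nlinarith [mul_nonneg (Nat.cast_nonneg N : (0 : ℝ) ≤ N) (add_nonneg hw.a_nonneg zero_le_one)]

lemma Window.tri_ne (hw : Window EM good m a N) {G : Finset (Sym2 (Fin n))}
    (hG : G ⊆ completeEdges n) (hE : EM < G.card) (hg : good G) : triangles G ≠ ∅ := by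
  intro h
  obtain ⟨f, hf⟩ := card_pos.1 (lt_of_le_of_lt (Nat.zero_le _) hE)
  have h1 := (hw.cod G hG hE hg f hf).1
  have h2 : (through G f).card = 0 := by simp [through, h]
  rw [h2, Nat.cast_zero] at h1
  nlinarith [hw.pos _ hE, (hw.frac hE).2, mul_pos (hw.pos _ hE)
    (show 0 < 1 - a / G.card by linarith [(hw.frac hE).2])]

/-- One step kills a small set with the expected rate. -/
lemma Window.rate (hw : Window EM good m a N) {G S : Finset (Sym2 (Fin n))}
    (hG : G ⊆ completeEdges n) (hE : EM < G.card) (hg : good G) (hS : S ⊆ G) (hN : S.card ≤ N) :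
    (((triangles G).filter fun t => Disjoint S (edgesOf t)).card : ℝ) ≤
      (triangles G).card * (1 - 3 * S.card / G.card * (1 - 3 * (a / G.card))) := by
  obtain ⟨hb0, hb1⟩ := hw.frac hE
  have hm := hw.pos _ hE
  set E : ℝ := (G.card : ℝ) with hEdef
  set b : ℝ := a / G.card with hb
  set T : ℝ := ((triangles G).card : ℝ) with hT
  set s : ℝ := (S.card : ℝ) with hs
  have hE0 : 0 < E := by rw [hEdef]; exact_mod_cast lt_of_le_of_lt (Nat.zero_le _) hE
  have hsplit : (((triangles G).filter fun t => Disjoint S (edgesOf t)).card : ℝ) +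
      ((triangles G).filter fun t => ¬ Disjoint S (edgesOf t)).card = T := by
    rw [hT]
    exact_mod_cast card_filter_add_card_filter_not _
  set D : ℝ := (((triangles G).filter fun t => ¬ Disjoint S (edgesOf t)).card : ℝ) with hD
  have hlow : s * (m G.card * (1 - b)) ≤ D + s ^ 2 := by
    have h := sum_through_le G S
    have h' : (∑ f ∈ S, ((through G f).card : ℝ)) ≤ D + s ^ 2 := by
      rw [hD, hs]; exact_mod_cast h
    refine le_trans ?_ h'
    rw [hs, ← nsmul_eq_mul]
    exact card_nsmul_le_sum _ _ _ fun f hf => (hw.cod G hG hE hg f (hS hf)).1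
  have hsq : s ^ 2 ≤ s * (m G.card * b) := by
    rw [sq]
    refine mul_le_mul_of_nonneg_left (le_trans ?_ (hw.big _ hE)) (Nat.cast_nonneg _)
    rw [hs]; exact_mod_cast hN
  have hup : 3 * T ≤ E * (m G.card * (1 + b)) := by
    have h' : (∑ f ∈ G, ((through G f).card : ℝ)) = 3 * T := by
      rw [hT]; exact_mod_cast sum_through_self G
    rw [← h', hEdef, ← nsmul_eq_mul]
    exact sum_le_card_nsmul _ _ _ fun f hf => (hw.cod G hG hE hg f hf).2
  have hs0 : 0 ≤ s := Nat.cast_nonneg _
  have key : T * (3 * s / E * (1 - 3 * b)) ≤ D := by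
    have e : T * (3 * s / E * (1 - 3 * b)) = 3 * T * (s * (1 - 3 * b)) / E := by ring
    rw [e, div_le_iff₀ hE0]
    have h1 : 3 * T * (s * (1 - 3 * b)) ≤ E * (m G.card * (1 + b)) * (s * (1 - 3 * b)) :=
      mul_le_mul_of_nonneg_right hup (mul_nonneg hs0 (by linarith))
    have h2 : (1 + b) * (1 - 3 * b) ≤ 1 - 2 * b := by nlinarith
    have h3 : E * (m G.card * (1 + b)) * (s * (1 - 3 * b)) ≤
        E * (m G.card * (s * (1 - 2 * b))) := by
      have := mul_le_mul_of_nonneg_left h2 (mul_nonneg (mul_nonneg hE0.le hm.le) hs0)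
      linarith
    have h4 : m G.card * (s * (1 - 2 * b)) ≤ D := by linarith
    have := mul_le_mul_of_nonneg_left h4 hE0.le
    linarith
  nlinarith [key, hsplit]

/-- The exponent of the potential. -/
noncomputable def expo (EM : ℕ) (a : ℝ) (E : ℝ) : ℝ :=
  Real.log (EM / E) + (3 * a + 3) * (2 / EM - 1 / E)

lemma expo_step {E : ℝ} (hEM : 6 ≤ EM) (ha : 0 ≤ a) (hE : (EM : ℝ) < E) :
    expo EM a (E - 3) ≤ expo EM a E + 3 / E * (1 - 3 * (a / E)) := by
  have h6 : (6 : ℝ) ≤ EM := by exact_mod_cast hEM
  have hE3 : 0 < E - 3 := by linarith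
  have hE0 : 0 < E := by linarith
  have hlog : Real.log (EM / (E - 3)) ≤ Real.log (EM / E) + 3 / (E - 3) := by
    have h := Real.log_le_sub_one_of_pos (show 0 < E / (E - 3) by positivity)
    rw [Real.log_div hE0.ne' hE3.ne'] at h
    rw [Real.log_div (by positivity) hE0.ne', Real.log_div (by positivity) hE3.ne']
    have e : E / (E - 3) - 1 = 3 / (E - 3) := by field_simp; ring
    linarith
  have e1 : 3 / (E - 3) - 3 / E * (1 - 3 * (a / E)) =
      9 / (E * (E - 3)) + 9 * a / E ^ 2 := by field_simp; ring
  have e2 : (3 * a + 3) * (2 / EM - 1 / E) - (3 * a + 3) * (2 / EM - 1 / (E - 3)) =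
      9 * a / (E * (E - 3)) + 9 / (E * (E - 3)) := by field_simp; ring
  have e3 : 9 * a / E ^ 2 ≤ 9 * a / (E * (E - 3)) :=
    div_le_div_of_nonneg_left (by linarith) (mul_pos hE0 hE3) (by nlinarith)
  unfold expo
  linarith

/-- **Presence of a small set of edges.** -/
theorem pr_subset_le (hw : Window EM good m a N) (S : Finset (Sym2 (Fin n))) (hS : S.card ≤ N) :
    EvUntil (stageStop EM good) (fun G => if good G ∧ S ⊆ G then (1 : ℝ) else 0)
      (completeEdges n) ≤ 2 * dens n EM ^ S.card := by
  set W : Finset (Sym2 (Fin n)) → ℝ := fun G =>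
    if EM < G.card + 3 then
      (if S ⊆ G then Real.exp (S.card * expo EM a G.card) else 0) else 1 with hW
  have h6 : (6 : ℝ) ≤ EM := by exact_mod_cast hw.six
  refine le_trans (EvUntil_le_of_superharmonic W (fun G hG hs => ?_) fun G hG hs ht => ?_) ?_
  · by_cases hb : good G ∧ S ⊆ G
    · rw [if_pos hb]
      simp only [hW]
      by_cases h3 : EM < G.card + 3
      · rw [if_pos h3, if_pos hb.2]
        refine Real.one_le_exp (mul_nonneg (Nat.cast_nonneg _) ?_)
        have hle : G.card ≤ EM := by
          by_contra hlt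
          push Not at hlt
          rcases hs with hs | hs
          · rcases hs with hs | hs
            · omega
            · exact hs hb.1
          · exact hw.tri_ne hG hlt hb.1 hs
        have hG0 : (0 : ℝ) < G.card := by
          exact_mod_cast (by have := hw.six; omega : 0 < G.card)
        have h1 : (EM : ℝ) / 2 ≤ G.card := by
          have : (EM : ℝ) ≤ G.card + 3 := by exact_mod_cast h3.le
          linarith
        refine add_nonneg (Real.log_nonneg ?_) (mul_nonneg (by linarith [hw.a_nonneg]) ?_)
        · rw [le_div_iff₀ hG0, one_mul]; exact_mod_cast hle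
        · have := one_div_le_one_div_of_le (by linarith : 0 < (EM : ℝ) / 2) h1
          rw [one_div_div] at this
          linarith
      · rw [if_neg h3]
    · rw [if_neg hb]
      simp only [hW]
      split_ifs <;> positivity
  · rw [stageStop, not_or, not_le, not_not] at hs
    obtain ⟨hE, hg⟩ := hs
    have hchild : ∀ t ∈ triangles G, W (G \ edgesOf t) =
        if S ⊆ G ∧ Disjoint S (edgesOf t) then Real.exp (S.card * expo EM a (G.card - 3)) else 0 := by
      intro t ht'
      have h := card_step ht'
      have h3 : EM < (G \ edgesOf t).card + 3 := by omega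
      have hc : ((G \ edgesOf t).card : ℝ) = (G.card : ℝ) - 3 := by
        rw [← h]; push_cast; ring
      simp only [hW, if_pos h3, subset_sdiff, hc]
    simp only [childAvg]
    rw [sum_congr rfl hchild]
    have hWG : W G = if S ⊆ G then Real.exp (S.card * expo EM a G.card) else 0 := by
      simp only [hW]; rw [if_pos (by omega)]
    rw [hWG]
    by_cases hSG : S ⊆ G
    · rw [if_pos hSG, sum_congr rfl fun t _ => if_congr (and_iff_right hSG) rfl rfl, ← sum_filter,
        sum_const, nsmul_eq_mul, div_le_iff₀ (card_pos_of_nonterminal ht)]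
      have hr := hw.rate hG hE hg hSG hS
      refine (mul_le_mul_of_nonneg_right hr (Real.exp_pos _).le).trans ?_
      rw [mul_comm (Real.exp _) ((triangles G).card : ℝ), mul_assoc]
      refine mul_le_mul_of_nonneg_left ?_ (Nat.cast_nonneg _)
      set x : ℝ := 3 * (S.card : ℝ) / G.card * (1 - 3 * (a / G.card))
      refine (mul_le_mul_of_nonneg_right (Real.one_sub_le_exp_neg x) (Real.exp_pos _).le).trans ?_
      rw [← Real.exp_add]
      refine Real.exp_le_exp.2 ?_
      have h := mul_le_mul_of_nonneg_left
        (expo_step (a := a) hw.six hw.a_nonneg (show (EM : ℝ) < G.card by exact_mod_cast hE))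
        (Nat.cast_nonneg S.card)
      have e : x = (S.card : ℝ) * (3 / G.card * (1 - 3 * (a / G.card))) := by ring
      linarith
    · rw [if_neg hSG, sum_congr rfl fun t _ => if_neg fun h => hSG h.1]
      simp
  · have h3 : EM < (completeEdges n).card + 3 := by
      have := hw.le_n
      rw [card_completeEdges]; omega
    simp only [hW, if_pos h3]
    split_ifs
    swap
    · exact mul_nonneg zero_le_two (pow_nonneg (by unfold dens; positivity) _)
    rw [card_completeEdges]
    have hd : 0 < dens n EM := by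
      unfold dens
      have := hw.six
      have := hw.le_n
      exact div_pos (by positivity) (by exact_mod_cast (by omega : 0 < n.choose 2))
    rw [expo, mul_add, Real.exp_add, show Real.log ((EM : ℝ) / n.choose 2) = Real.log (dens n EM)
      from rfl, Real.exp_nat_mul, Real.exp_log hd, mul_comm (2 : ℝ)]
    refine mul_le_mul_of_nonneg_left ?_ (pow_nonneg hd.le _)
    calc Real.exp ((S.card : ℝ) * ((3 * a + 3) * (2 / EM - 1 / (n.choose 2 : ℝ))))
        ≤ Real.exp (1 / 2) := by
          refine Real.exp_le_exp.2 ?_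
          have hS' : (S.card : ℝ) ≤ N := by exact_mod_cast hS
          have ha := hw.a_nonneg
          have h1 : (S.card : ℝ) * ((3 * a + 3) * (2 / EM - 1 / (n.choose 2 : ℝ))) ≤
              (N : ℝ) * ((3 * a + 3) * (2 / EM)) := by
            refine (mul_le_mul_of_nonneg_left ?_ (Nat.cast_nonneg _)).trans
              (mul_le_mul_of_nonneg_right hS' (by positivity))
            refine mul_le_mul_of_nonneg_left ?_ (by linarith)
            have : 0 ≤ 1 / (n.choose 2 : ℝ) := by positivity
            linarith
          refine h1.trans ?_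
          rw [show (N : ℝ) * ((3 * a + 3) * (2 / EM)) = 6 * N * (a + 1) / EM by ring,
            div_le_iff₀ (by linarith)]
          nlinarith [hw.small]
      _ ≤ 2 := by
          have h := Real.exp_one_lt_d9
          have e : Real.exp (1 / 2) * Real.exp (1 / 2) = Real.exp 1 := by
            rw [← Real.exp_add]; norm_num
          nlinarith [Real.exp_pos (1 / 2)]

end Vale.Agent.P046.Trees
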