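import Vale.Agent.P046.Trees.Surv
import Vale.Agent.P046.Full.LabelDefs

/-!
Walks in the triangle hypergraph below an edge. If two different walks reach the same edge, their
union spans too many edges for its vertices; otherwise the balls are hypertrees.
-/

namespace Vale.Agent.P046.Trees

open Finset
open scoped Classical

variable {n : ℕ} {G H B : Finset (Sym2 (Fin n))} {e g : Sym2 (Fin n)} {t : Finset (Fin n)}
  {l : List (Finset (Fin n))}

/-- Walks from `e`: the triangles met, latest first, and the edge reached. -/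
inductive Reach (G : Finset (Sym2 (Fin n))) (e : Sym2 (Fin n)) :
    List (Finset (Fin n)) → Sym2 (Fin n) → Prop
  | root : Reach G e [] e
  | step {l : List (Finset (Fin n))} {g : Sym2 (Fin n)} {t : Finset (Fin n)} {g' : Sym2 (Fin n)} :
      Reach G e l g → t ∈ Full.Labels.kids G (l.headD ∅) g → g' ∈ (edgesOf t).erase g →
      Reach G e (t :: l) g'

/-- Every edge within `R` steps of `e` is reached by one walk only. -/
def Unique (G : Finset (Sym2 (Fin n))) (e : Sym2 (Fin n)) (R : ℕ) : Prop :=
  ∀ l l' g, l.length ≤ R → l'.length ≤ R → Reach G e l g → Reach G e l' g → l = l'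

/-- The vertices covered by an edge set. -/
noncomputable def vts (B : Finset (Sym2 (Fin n))) : Finset (Fin n) :=
  univ.filter fun x => ∃ f ∈ B, x ∈ f

lemma mem_vts {x : Fin n} : x ∈ vts B ↔ ∃ f ∈ B, x ∈ f := by simp [vts]

/-- The edges of a walk, added to `A`. -/
noncomputable def uni (A : Finset (Sym2 (Fin n))) : List (Finset (Fin n)) → Finset (Sym2 (Fin n))
  | [] => A
  | t :: l => uni A l ∪ edgesOf t

lemma subset_uni (A : Finset (Sym2 (Fin n))) : ∀ l, A ⊆ uni A l
  | [] => subset_rfl
  | _ :: l => (subset_uni A l).trans subset_union_left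

/-- Too many edges for the vertices. -/
def Dense (B : Finset (Sym2 (Fin n))) : Prop := 2 * (vts B).card < B.card + 3

/-- The exact count and uniqueness of walks, as in a tree of triangles. -/
structure Grown (e : Sym2 (Fin n)) (B : Finset (Sym2 (Fin n))) : Prop where
  mem : e ∈ B
  count : B.card + 3 = 2 * (vts B).card
  uniq : ∀ l l' g, Reach B e l g → Reach B e l' g → l = l'

lemma mem_kids {P : Finset (Fin n)} :
    t ∈ Full.Labels.kids G P g ↔ t ∈ triangles G ∧ g ∈ edgesOf t ∧ t ≠ P := mem_filter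

lemma Reach.mem_uni (A : Finset (Sym2 (Fin n))) (he : e ∈ A) (h : Reach G e l g) :
    g ∈ uni A l := by
  cases h with
  | root => exact he
  | step _ _ hg => exact mem_union_right _ (mem_erase.1 hg).2

lemma Reach.uni_subset (h : Reach G e l g) {A : Finset (Sym2 (Fin n))} (hA : A ⊆ G) :
    uni A l ⊆ G := by
  induction h with
  | root => exact hA
  | step _ ht _ ih => exact union_subset ih (edgesOf_subset (mem_kids.1 ht).1)

lemma Reach.mem (h : Reach G e l g) (he : e ∈ G) : g ∈ G :=
  h.uni_subset (A := {e}) (singleton_subset_iff.2 he) (h.mem_uni _ (mem_singleton_self e))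

/-- A walk lives in any edge set containing its edges. -/
lemma Reach.restrict (h : Reach G e l g) {A : Finset (Sym2 (Fin n))} (hH : uni A l ⊆ H) :
    Reach H e l g := by
  induction h with
  | root => exact .root
  | step _ ht hg ih =>
    obtain ⟨h1, h2, h3⟩ := mem_kids.1 ht
    have hH' := union_subset_iff.1 hH
    exact .step (ih hH'.1)
      (mem_kids.2 ⟨mem_filter.2 ⟨(mem_filter.1 h1).1, hH'.2⟩, h2, h3⟩) hg

lemma Reach.mono (h : Reach G e l g) (hGH : G ⊆ H) : Reach H e l g := by
  induction h with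
  | root => exact .root
  | step _ ht hg ih =>
    obtain ⟨h1, h2, h3⟩ := mem_kids.1 ht
    exact .step ih
      (mem_kids.2 ⟨mem_filter.2 ⟨(mem_filter.1 h1).1, (mem_filter.1 h1).2.trans hGH⟩, h2, h3⟩) hg

lemma mem_edgesOf' {T : Finset (Fin n)} {a b : Fin n} :
    s(a, b) ∈ edgesOf T ↔ (a ∈ T ∧ b ∈ T) ∧ a ≠ b := by
  simp [edgesOf, Finset.mem_sym2_iff]

/-- The third vertex of a triangle over one of its edges. -/
lemma exists_third (ht : t ∈ triangles G) (hg : g ∈ edgesOf t) :
    ∃ x ∈ t, x ∉ g ∧ (∀ y ∈ t, y = x ∨ y ∈ g) ∧ ∀ h ∈ edgesOf t, x ∉ h → h = g := by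
  induction g using Sym2.ind with
  | _ u v =>
    obtain ⟨⟨hu, hv⟩, huv⟩ := mem_edgesOf'.1 hg
    have hc : ((t.erase u).erase v).card = 1 := by
      rw [card_erase_of_mem (mem_erase.2 ⟨huv.symm, hv⟩), card_erase_of_mem hu,
        card_of_mem_triangles ht]
    obtain ⟨x, hx⟩ := card_eq_one.1 hc
    have hx' : x ∈ (t.erase u).erase v := hx ▸ mem_singleton_self x
    simp only [mem_erase] at hx'
    have hall : ∀ y ∈ t, y = x ∨ y ∈ s(u, v) := by
      intro y hy
      by_cases h : y ∈ (t.erase u).erase v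
      · rw [hx, mem_singleton] at h; exact Or.inl h
      · simp only [mem_erase, hy, and_true, not_and_or, not_not] at h
        exact Or.inr (Sym2.mem_iff.2 h.symm)
    refine ⟨x, hx'.2.2, by simp [hx'.1, hx'.2.1], hall, fun h hh hxh => ?_⟩
    induction h using Sym2.ind with
    | _ a b =>
      obtain ⟨⟨ha, hb⟩, hab⟩ := mem_edgesOf'.1 hh
      simp only [Sym2.mem_iff, not_or] at hxh
      have h1 := (hall a ha).resolve_left (Ne.symm hxh.1)
      have h2 := (hall b hb).resolve_left (Ne.symm hxh.2)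
      exact ((Sym2.mem_and_mem_iff hab).1 ⟨h1, h2⟩).symm

lemma card_union_tri (ht : t ∈ triangles G) (hg : g ∈ edgesOf t) (hgB : g ∈ B) :
    (B ∪ edgesOf t).card ≤ B.card + 2 := by
  have h : B ∪ edgesOf t ⊆ B ∪ (edgesOf t).erase g := fun f hf => by
    rcases eq_or_ne f g with rfl | hne
    · exact mem_union_left _ hgB
    · rcases mem_union.1 hf with hf | hf
      · exact mem_union_left _ hf
      · exact mem_union_right _ (mem_erase.2 ⟨hne, hf⟩)
  refine (card_le_card h).trans ((card_union_le _ _).trans ?_)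
  rw [card_erase_of_mem hg, card_edgesOf (card_of_mem_triangles ht)]

lemma vts_union_tri (hgB : g ∈ B) {x : Fin n} (hall : ∀ y ∈ t, y = x ∨ y ∈ g) :
    vts (B ∪ edgesOf t) ⊆ insert x (vts B) := by
  intro y hy
  obtain ⟨f, hf, hyf⟩ := mem_vts.1 hy
  rcases mem_union.1 hf with hf | hf
  · exact mem_insert_of_mem (mem_vts.2 ⟨f, hf, hyf⟩)
  · have hyt : y ∈ t := Finset.mem_sym2_iff.1 (mem_filter.1 hf).1 y hyf
    exact (hall y hyt).elim (fun h => h ▸ mem_insert_self _ _)
      fun h => mem_insert_of_mem (mem_vts.2 ⟨g, hgB, h⟩)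

lemma card_vts_union_tri (ht : t ∈ triangles G) (hg : g ∈ edgesOf t) (hgB : g ∈ B) :
    (vts (B ∪ edgesOf t)).card ≤ (vts B).card + 1 := by
  obtain ⟨x, _, _, hall, _⟩ := exists_third ht hg
  exact (card_le_card (vts_union_tri hgB hall)).trans (card_insert_le _ _)

/-- One more triangle keeps an edge set dense or grown. -/
lemma grow (hB : Dense B ∨ Grown e B) (ht : t ∈ triangles G) (hg : g ∈ edgesOf t) (hgB : g ∈ B) :
    Dense (B ∪ edgesOf t) ∨ Grown e (B ∪ edgesOf t) := by
  obtain ⟨x, hxt, hxg, hall, honly⟩ := exists_third ht hg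
  have hsub : vts B ⊆ vts (B ∪ edgesOf t) := fun y hy => by
    obtain ⟨f, hf, hyf⟩ := mem_vts.1 hy
    exact mem_vts.2 ⟨f, mem_union_left _ hf, hyf⟩
  by_cases hx : x ∈ vts B
  · have hv : vts (B ∪ edgesOf t) = vts B := by
      refine subset_antisymm ((vts_union_tri hgB hall).trans ?_) hsub
      rw [insert_eq_of_mem hx]
    by_cases hBB : edgesOf t ⊆ B
    · rwa [union_eq_left.2 hBB]
    · have hlt : B.card < (B ∪ edgesOf t).card :=
        card_lt_card (Finset.ssubset_iff_subset_ne.2 ⟨subset_union_left,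
          fun h => hBB (h ▸ subset_union_right)⟩)
      refine Or.inl ?_
      unfold Dense
      rw [hv]
      rcases hB with hB | hB
      · unfold Dense at hB; omega
      · have := hB.count; omega
  have hnew : ∀ f ∈ edgesOf t, f ≠ g → f ∉ B := fun f hf hne hfB =>
    hx (mem_vts.2 ⟨f, hfB, by_contra fun h => hne (honly f hf h)⟩)
  have hcard : (B ∪ edgesOf t).card = B.card + 2 := by
    have h : B ∪ edgesOf t = B ∪ (edgesOf t).erase g := by
      ext f
      rcases eq_or_ne f g with rfl | hne
      · simp [hgB]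
      · simp [hne]
    rw [h, card_union_of_disjoint, card_erase_of_mem hg, card_edgesOf (card_of_mem_triangles ht)]
    exact disjoint_right.2 fun f hf => hnew f (mem_erase.1 hf).2 (mem_erase.1 hf).1
  have hxv : x ∈ vts (B ∪ edgesOf t) := by
    induction g using Sym2.ind with
    | _ u v =>
      simp only [Sym2.mem_iff, not_or] at hxg
      exact mem_vts.2 ⟨s(u, x), mem_union_right _
        (mem_edgesOf'.2 ⟨⟨(mem_edgesOf'.1 hg).1.1, hxt⟩, Ne.symm hxg.1⟩), by simp⟩
  have hv : (vts (B ∪ edgesOf t)).card = (vts B).card + 1 := by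
    rw [subset_antisymm (vts_union_tri hgB hall) (insert_subset hxv hsub),
      card_insert_of_notMem hx]
  rcases hB with hB | hB
  · refine Or.inl ?_
    unfold Dense at hB ⊢
    omega
  refine Or.inr ⟨mem_union_left _ hB.mem, by have := hB.count; omega, ?_⟩
  have hx_tri : ∀ u ∈ triangles (B ∪ edgesOf t), x ∈ u → u = t := by
    intro u hu hxu
    have hc : (u.erase x).card = 2 := by rw [card_erase_of_mem hxu, card_of_mem_triangles hu]
    obtain ⟨y, z, hyz, hyz'⟩ := card_eq_two.1 hc
    have hy : y ∈ u.erase x := by simp [hyz']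
    have hz : z ∈ u.erase x := by simp [hyz']
    simp only [mem_erase] at hy hz
    have hin : ∀ w ∈ u, w ≠ x → s(x, w) ∈ edgesOf t := fun w hw hne =>
      (mem_union.1 (edgesOf_subset hu (mem_edgesOf'.2 ⟨⟨hxu, hw⟩, hne.symm⟩))).resolve_left
        fun h => hx (mem_vts.2 ⟨_, h, Sym2.mem_mk_left x w⟩)
    exact tri_eq hu ht (e := s(x, y)) (f := s(x, z))
      (fun h => hyz (Sym2.congr_right.1 h)) (mem_edgesOf'.2 ⟨⟨hxu, hy.2⟩, hy.1.symm⟩)
      (mem_edgesOf'.2 ⟨⟨hxu, hz.2⟩, hz.1.symm⟩) (hin y hy.2 hy.1) (hin z hz.2 hz.1)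
  have key : ∀ l f, Reach (B ∪ edgesOf t) e l f →
      (Reach B e l f ∧ f ∈ B) ∨ ∃ l0, l = t :: l0 ∧ Reach B e l0 g ∧ f ∈ (edgesOf t).erase g := by
    intro l f h
    induction h with
    | root => exact Or.inl ⟨.root, hB.mem⟩
    | @step l f u f' _ hu hf' ih =>
      obtain ⟨hu1, hu2, hu3⟩ := mem_kids.1 hu
      rcases ih with ⟨hr, hfB⟩ | ⟨l0, rfl, _, hfnew⟩
      · by_cases hut : u = t
        · subst hut
          have hfg : f = g := by_contra fun hne => hnew f hu2 hne hfB
          subst hfg
          exact Or.inr ⟨l, rfl, hr, hf'⟩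
        · have hxu : x ∉ u := fun h => hut (hx_tri u hu1 h)
          have hsubB : edgesOf u ⊆ B := fun k hk => by
            rcases mem_union.1 (edgesOf_subset hu1 hk) with h | h
            · exact h
            · have hxk : x ∉ k := fun h' =>
                hxu (Finset.mem_sym2_iff.1 (mem_filter.1 hk).1 x h')
              exact honly k h hxk ▸ hgB
          exact Or.inl ⟨.step hr (mem_kids.2 ⟨mem_filter.2 ⟨(mem_filter.1 hu1).1, hsubB⟩, hu2, hu3⟩)
            hf', hsubB (mem_erase.1 hf').2⟩
      · have hxf : x ∈ f := by_contra fun h =>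
          (mem_erase.1 hfnew).1 (honly f (mem_erase.1 hfnew).2 h)
        exact absurd (hx_tri u hu1 (Finset.mem_sym2_iff.1 (mem_filter.1 hu2).1 x hxf)) hu3
  intro l l' f hl hl'
  rcases key l f hl with ⟨h1, h1'⟩ | ⟨a, rfl, h1, h1'⟩ <;>
    rcases key l' f hl' with ⟨h2, h2'⟩ | ⟨b, rfl, h2, h2'⟩
  · exact hB.uniq _ _ f h1 h2
  · exact absurd h1' (hnew f (mem_erase.1 h2').2 (mem_erase.1 h2').1)
  · exact absurd h2' (hnew f (mem_erase.1 h1').2 (mem_erase.1 h1').1)
  · rw [hB.uniq _ _ g h1 h2]

lemma grown_singleton (he : ¬ e.IsDiag) : Grown e {e} := by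
  refine ⟨mem_singleton_self e, ?_, fun l l' f hl hl' => ?_⟩
  · induction e using Sym2.ind with
    | _ a b =>
      have hab : a ≠ b := by simpa using he
      have : vts ({s(a, b)} : Finset (Sym2 (Fin n))) = {a, b} := by
        ext y; simp [mem_vts]
      rw [this, card_pair hab, card_singleton]
  · have hnil : ∀ l f, Reach ({e} : Finset (Sym2 (Fin n))) e l f → l = [] := by
      intro l f h
      cases h with
      | root => rfl
      | step _ ht _ =>
        have h1 := (mem_kids.1 ht).1
        have h2 := card_le_card (edgesOf_subset h1)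
        rw [card_edgesOf (card_of_mem_triangles h1), card_singleton] at h2
        omega
    rw [hnil _ _ hl, hnil _ _ hl']

lemma Reach.grow_uni (h : Reach G e l g) {A : Finset (Sym2 (Fin n))} (he : e ∈ A)
    (hA : Dense A ∨ Grown e A) : Dense (uni A l) ∨ Grown e (uni A l) := by
  induction h with
  | root => exact hA
  | step hr ht _ ih => exact grow ih (mem_kids.1 ht).1 (mem_kids.1 ht).2.1 (hr.mem_uni A he)

/-- **The witness.** Two different walks to the same edge span a dense edge set. -/
theorem dense_of_not_unique (hG : G ⊆ completeEdges n) (he : e ∈ G) {R : ℕ}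
    (h : ¬ Unique G e R) : ∃ l l' g g', l.length ≤ R ∧ l'.length ≤ R ∧ Reach G e l g ∧
      Reach G e l' g' ∧ uni (uni {e} l) l' ⊆ G ∧ Dense (uni (uni {e} l) l') := by
  simp only [Unique, not_forall] at h
  obtain ⟨l, l', g, hl, hl', hr, hr', hne⟩ := h
  have hsub : uni (uni {e} l) l' ⊆ G :=
    hr'.uni_subset (hr.uni_subset (singleton_subset_iff.2 he))
  refine ⟨l, l', g, g, hl, hl', hr, hr', hsub, ?_⟩
  have hroot : ¬ e.IsDiag := (mem_filter.1 (hG he)).2
  have he' : e ∈ uni {e} l := subset_uni _ _ (mem_singleton_self e)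
  refine (hr'.grow_uni he' (hr.grow_uni (mem_singleton_self e)
    (Or.inr (grown_singleton hroot)))).resolve_right fun hgr => hne ?_
  exact hgr.uniq l l' g (hr.restrict (subset_uni _ l')) (hr'.restrict subset_rfl)

/-- Unique walks give the hypertree property of the label analysis, and locate what it reads. -/
lemma Unique.nodes (G : Finset (Sym2 (Fin n))) (e : Sym2 (Fin n)) :
    ∀ (k : ℕ) (l : List (Finset (Fin n))) (g : Sym2 (Fin n)), Reach G e l g →
      ∀ X ∈ Full.Labels.dep G k (l.headD ∅) g, ∃ s g', s.length < k ∧ Reach G e (s ++ l) g' ∧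
        X ∈ Full.Labels.kids G ((s ++ l).headD ∅) g' ∧
        (X :: s).getLast (List.cons_ne_nil _ _) ∈ Full.Labels.kids G (l.headD ∅) g
  | 0, _, _, _, X, hX => by simp [Full.Labels.dep] at hX
  | k + 1, l, g, hr, X, hX => by
    simp only [Full.Labels.dep, mem_biUnion, mem_insert] at hX
    obtain ⟨T, hT, hX | ⟨h, hh, hX⟩⟩ := hX
    · subst hX
      exact ⟨[], g, Nat.succ_pos k, hr, hT, hT⟩
    · obtain ⟨s, g', hs, hs1, hs2, _⟩ := Unique.nodes G e k (T :: l) h (.step hr hT hh) X hX
      refine ⟨s ++ [T], g', by simp; omega, by simpa using hs1, by simpa using hs2, ?_⟩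
      rw [List.getLast_cons (by simp), List.getLast_append_singleton]
      exact hT

lemma Unique.node_eq {R : ℕ} (hU : Unique G e R) {l' : List (Finset (Fin n))}
    {g' : Sym2 (Fin n)} (hr : Reach G e l g) (hr' : Reach G e l' g') (hl : l.length < R)
    (hl' : l'.length < R) (ht : t ∈ Full.Labels.kids G (l.headD ∅) g)
    (ht' : t ∈ Full.Labels.kids G (l'.headD ∅) g') : l = l' := by
  rcases eq_or_ne g g' with rfl | hne
  · exact hU l l' g hl.le hl'.le hr hr'
  · exfalso
    have h := hU (t :: l) l' g' (by simp; omega) hl'.le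
      (.step hr ht (mem_erase.2 ⟨hne.symm, (mem_kids.1 ht').2.1⟩)) hr'
    subst h
    exact (mem_kids.1 ht').2.2 rfl

theorem Unique.tree {R : ℕ} (hU : Unique G e R) :
    ∀ (k : ℕ) (l : List (Finset (Fin n))) (g : Sym2 (Fin n)), Reach G e l g →
      l.length + k ≤ R → Full.Labels.Tree G k (l.headD ∅) g
  | 0, _, _, _, _ => by simp [Full.Labels.Tree]
  | k + 1, l, g, hr, hlen => by
    have child : ∀ T ∈ Full.Labels.kids G (l.headD ∅) g, ∀ h ∈ (edgesOf T).erase g,
        ∀ X ∈ Full.Labels.dep G k T h, ∃ s g', s.length < k ∧ Reach G e (s ++ T :: l) g' ∧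
          X ∈ Full.Labels.kids G ((s ++ T :: l).headD ∅) g' ∧
          (X :: s).getLast (List.cons_ne_nil _ _) ∈ Full.Labels.kids G T h :=
      fun T hT h hh => Unique.nodes G e k (T :: l) h (.step hr hT hh)
    refine ⟨fun T hT h hh => ⟨Unique.tree hU k (T :: l) h (.step hr hT hh) (by simp; omega),
      fun hmem => ?_, fun h' hh' hne => disjoint_left.2 fun X hX hX' => ?_⟩,
      fun T hT T' hT' hne => disjoint_left.2 fun X hX hX' => hne ?_⟩
    · obtain ⟨s, g', hs, hs1, hs2, _⟩ := child T hT h hh T hmem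
      have := congrArg List.length
        (hU.node_eq hr hs1 (by omega) (by simp; omega) hT hs2)
      simp at this
      omega
    · obtain ⟨s, g', hs, hs1, hs2, hs3⟩ := child T hT h hh X hX
      obtain ⟨s', g'', hs', hs1', hs2', hs3'⟩ := child T hT h' hh' X hX'
      have := List.append_cancel_right (hU.node_eq hs1 hs1' (by simp; omega) (by simp; omega)
        hs2 hs2')
      subst this
      obtain ⟨a1, a2, a3⟩ := mem_kids.1 hs3
      exact a3 (tri_eq a1 (mem_kids.1 hT).1 (Ne.symm hne) a2 (mem_kids.1 hs3').2.1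
        (mem_erase.1 hh).2 (mem_erase.1 hh').2)
    · have branch : ∀ T ∈ Full.Labels.kids G (l.headD ∅) g,
          X ∈ insert T (((edgesOf T).erase g).biUnion fun h => Full.Labels.dep G k T h) →
          ∃ s g', s.length < k + 1 ∧ Reach G e (s ++ l) g' ∧
            X ∈ Full.Labels.kids G ((s ++ l).headD ∅) g' ∧
            (X :: s).getLast (List.cons_ne_nil _ _) = T := by
        intro T hT hX
        rcases mem_insert.1 hX with rfl | hX
        · exact ⟨[], g, Nat.succ_pos k, hr, hT, rfl⟩
        · obtain ⟨h, hh, hX⟩ := mem_biUnion.1 hX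
          obtain ⟨s, g', hs, hs1, hs2, _⟩ := child T hT h hh X hX
          refine ⟨s ++ [T], g', by simp; omega, by simpa using hs1, by simpa using hs2, ?_⟩
          rw [List.getLast_cons (by simp), List.getLast_append_singleton]
      obtain ⟨s, g', hs, hs1, hs2, hs3⟩ := branch T hT hX
      obtain ⟨s', g'', hs', hs1', hs2', hs3'⟩ := branch T' hT' hX'
      have := List.append_cancel_right (hU.node_eq hs1 hs1' (by simp; omega) (by simp; omega)
        hs2 hs2')
      subst this
      rw [← hs3, ← hs3']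

theorem Unique.tree_root {R k : ℕ} (hU : Unique G e R) (hk : k ≤ R) :
    Full.Labels.Tree G k ∅ e :=
  hU.tree k [] e .root (by simpa using hk)

end Vale.Agent.P046.Trees
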